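import Mathlib

/-! The Fejer kernel `∫₀¹ (1 - t) cos (t v) dt` and the Fourier step of the Wiener-Ikehara
theorem. -/

set_option autoImplicit false

open MeasureTheory Set Filter Topology

namespace Crest.Agent.Lib.PNT

/-- The Fejer kernel. -/
noncomputable def fej (v : ℝ) : ℝ := ∫ t in (0 : ℝ)..1, (1 - t) * Real.cos (t * v)

theorem fej_eq {v : ℝ} (hv : v ≠ 0) : fej v = (1 - Real.cos v) / v ^ 2 := by
  have h : ∀ t ∈ uIcc (0 : ℝ) 1, HasDerivAt
      (fun t : ℝ => (1 - t) * Real.sin (t * v) / v - Real.cos (t * v) / v ^ 2)
      ((1 - t) * Real.cos (t * v)) t := by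
    intro t _
    have h1 : HasDerivAt (fun t : ℝ => t * v) v t := by simpa using (hasDerivAt_id t).mul_const v
    have h2 : HasDerivAt (fun t : ℝ => 1 - t) (-1) t := by
      simpa using (hasDerivAt_id t).const_sub 1
    have h3 := ((h2.mul h1.sin).div_const v).sub (h1.cos.div_const (v ^ 2))
    refine h3.congr_deriv ?_
    field_simp
    ring
  rw [fej, intervalIntegral.integral_eq_sub_of_hasDerivAt h
    (Continuous.intervalIntegrable (by fun_prop) _ _)]
  simp
  ring

theorem fej_zero : fej 0 = 1 / 2 := by
  simp only [fej, mul_zero, Real.cos_zero, mul_one]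
  rw [intervalIntegral.integral_sub (by simp) (by simp)]
  simp
  norm_num

theorem fej_nonneg (v : ℝ) : 0 ≤ fej v := by
  rcases eq_or_ne v 0 with rfl | hv
  · rw [fej_zero]; norm_num
  · rw [fej_eq hv]
    exact div_nonneg (by linarith [Real.cos_le_one v]) (by positivity)

theorem fej_le_one (v : ℝ) : fej v ≤ 1 := by
  have h : ‖fej v‖ ≤ 1 * |(1 : ℝ) - 0| := by
    refine intervalIntegral.norm_integral_le_of_norm_le_const fun t ht => ?_
    rw [uIoc_of_le zero_le_one] at ht
    rw [Real.norm_eq_abs, abs_mul]
    have h1 : |1 - t| ≤ 1 := abs_le.2 ⟨by linarith [ht.2], by linarith [ht.1]⟩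
    exact mul_le_one₀ h1 (abs_nonneg _) (Real.abs_cos_le_one _)
  simpa using (le_abs_self _).trans h

theorem fej_le (v : ℝ) : fej v ≤ 3 * (1 + v ^ 2)⁻¹ := by
  rw [← div_eq_mul_inv, le_div_iff₀ (by positivity)]
  have h1 := fej_le_one v
  have h2 : fej v * v ^ 2 ≤ 2 := by
    rcases eq_or_ne v 0 with rfl | hv
    · simp
    · rw [fej_eq hv, div_mul_cancel₀ _ (by positivity)]
      linarith [Real.neg_one_le_cos v]
  nlinarith

theorem continuous_fej : Continuous fej := by
  unfold fej
  exact intervalIntegral.continuous_parametric_intervalIntegral_of_continuous'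
    (f := fun v t => (1 - t) * Real.cos (t * v)) (by fun_prop) _ _

theorem integrable_fej : Integrable fej := by
  refine (integrable_inv_one_add_sq.const_mul 3).mono' continuous_fej.aestronglyMeasurable
    (Eventually.of_forall fun v => ?_)
  rw [Real.norm_eq_abs, abs_of_nonneg (fej_nonneg v)]
  exact fej_le v

theorem integral_fej_pos : 0 < ∫ v, fej v :=
  integral_pos_of_integrable_nonneg_nonzero (x := 0) continuous_fej integrable_fej fej_nonneg
    (by rw [fej_zero]; norm_num)

theorem fej_tail : Tendsto (fun R : ℝ => ∫ v, ({v : ℝ | R < |v|}.indicator fej) v) atTop (𝓝 0) := by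
  have := tendsto_integral_filter_of_dominated_convergence (l := atTop) (μ := volume)
    (F := fun (R : ℝ) v => ({v : ℝ | R < |v|}.indicator fej) v) (f := fun _ => 0) fej ?_ ?_
    integrable_fej ?_
  · simpa using this
  · refine Eventually.of_forall fun R => ?_
    exact (continuous_fej.measurable.indicator
      (measurableSet_lt measurable_const continuous_abs.measurable)).aestronglyMeasurable
  · refine Eventually.of_forall fun R => Eventually.of_forall fun v => ?_
    refine (norm_indicator_le_norm_self _ _).trans ?_
    rw [Real.norm_eq_abs, abs_of_nonneg (fej_nonneg v)]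
  · refine Eventually.of_forall fun v => ?_
    refine tendsto_const_nhds.congr' ?_
    filter_upwards [eventually_ge_atTop |v|] with R hR
    rw [indicator_of_notMem]
    simpa using hR

/-- Riemann-Lebesgue on `[0, 1]`. -/
theorem rl (φ : ℝ → ℂ) :
    Tendsto (fun T : ℝ => ∫ t in (0 : ℝ)..1, Complex.exp (t * T * Complex.I) * φ t) atTop
      (𝓝 0) := by
  have h1 := Real.tendsto_integral_exp_smul_cocompact ((Ioc (0 : ℝ) 1).indicator φ)
  have h2 : Tendsto (fun T : ℝ => -(T / (2 * Real.pi))) atTop (cocompact ℝ) := by
    refine Tendsto.mono_right ?_ atBot_le_cocompact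
    exact tendsto_neg_atTop_atBot.comp (tendsto_id.atTop_div_const (by positivity))
  refine (h1.comp h2).congr fun T => ?_
  simp only [Function.comp]
  rw [intervalIntegral.integral_of_le zero_le_one, ← integral_indicator measurableSet_Ioc]
  refine integral_congr_ae (Eventually.of_forall fun v => ?_)
  by_cases hv : v ∈ Ioc (0 : ℝ) 1
  · simp only [indicator_of_mem hv, Circle.smul_def, Real.fourierChar_apply, smul_eq_mul]
    congr 2
    have : (Real.pi : ℂ) ≠ 0 := by exact_mod_cast Real.pi_ne_zero
    push_cast
    field_simp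
  · simp [indicator_of_notMem hv]

/-- The Fourier identity at a positive abscissa. -/
theorem conv_eq (F : ℝ → ℝ) (hm : Measurable F) (B : ℝ) (hB : ∀ u, |F u| ≤ B) {σ : ℝ}
    (hσ : 0 < σ) (T : ℝ) :
    ∫ u in Ioi (0 : ℝ), F u * Real.exp (-(σ * u)) * fej (T - u)
      = ∫ t in (0 : ℝ)..1, (Complex.exp (t * T * Complex.I) * ((1 - t) *
          ∫ u in Ioi (0 : ℝ), (F u : ℂ) * Complex.exp (-((σ + t * Complex.I) * u)))).re := by
  have hexp : IntegrableOn (fun u : ℝ => Real.exp (-(σ * u))) (Ioi 0) := by
    simpa using exp_neg_integrableOn_Ioi 0 hσ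
  have hB0 : 0 ≤ B := (abs_nonneg _).trans (hB 0)
  have key : ∀ t : ℝ, (Complex.exp (t * T * Complex.I) * ((1 - t) *
          ∫ u in Ioi (0 : ℝ), (F u : ℂ) * Complex.exp (-((σ + t * Complex.I) * u)))).re
        = ∫ u in Ioi (0 : ℝ), F u * Real.exp (-(σ * u)) * ((1 - t) * Real.cos (t * (T - u))) := by
    intro t
    rw [← mul_assoc, ← integral_const_mul]
    have hint : Integrable (fun u : ℝ => Complex.exp (t * T * Complex.I) * (1 - t) *
        ((F u : ℂ) * Complex.exp (-((σ + t * Complex.I) * u)))) (volume.restrict (Ioi 0)) := by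
      refine Integrable.const_mul ?_ _
      refine (hexp.const_mul B).mono' ?_ (Eventually.of_forall fun u => ?_)
      · exact Measurable.aestronglyMeasurable (by fun_prop)
      · rw [norm_mul, Complex.norm_real, Complex.norm_exp, Real.norm_eq_abs]
        have : (-((σ + t * Complex.I) * u : ℂ)).re = -(σ * u) := by simp
        rw [this]
        exact mul_le_mul_of_nonneg_right (hB u) (Real.exp_pos _).le
    have := integral_re hint
    simp only [RCLike.re_to_complex] at this
    rw [← this]
    refine integral_congr_ae (Eventually.of_forall fun u => ?_)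
    have e : Complex.exp (t * T * Complex.I) * (1 - t) *
        ((F u : ℂ) * Complex.exp (-((σ + t * Complex.I) * u)))
        = ((F u * Real.exp (-(σ * u)) * (1 - t) : ℝ) : ℂ) *
          Complex.exp (((t * (T - u) : ℝ) : ℂ) * Complex.I) := by
      have : Complex.exp (t * T * Complex.I) * Complex.exp (-((σ + t * Complex.I) * u))
          = Complex.exp (-(σ * u)) * Complex.exp (((t * (T - u) : ℝ) : ℂ) * Complex.I) := by
        rw [← Complex.exp_add, ← Complex.exp_add]
        congr 1
        push_cast
        ring
      push_cast at this ⊢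
      linear_combination (1 - (t : ℂ)) * (F u) * this
    simp only [e, Complex.re_ofReal_mul, Complex.exp_ofReal_mul_I_re]
    ring
  simp only [key]
  rw [intervalIntegral.integral_of_le zero_le_one, integral_integral_swap]
  · refine integral_congr_ae (Eventually.of_forall fun u => ?_)
    simp only
    rw [integral_const_mul, fej, intervalIntegral.integral_of_le zero_le_one]
  · have h1 : Integrable (fun p : ℝ × ℝ => (1 : ℝ) * (B * Real.exp (-(σ * p.2))))
        ((volume.restrict (Ioc (0 : ℝ) 1)).prod (volume.restrict (Ioi (0 : ℝ)))) :=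
      Integrable.mul_prod (f := fun _ : ℝ => (1 : ℝ)) (g := fun u => B * Real.exp (-(σ * u)))
        (integrable_const _) (hexp.const_mul B)
    refine h1.mono' ?_ ?_
    · exact Measurable.aestronglyMeasurable (by unfold Function.uncurry; fun_prop)
    · rw [Measure.prod_restrict, ae_restrict_iff' (measurableSet_Ioc.prod measurableSet_Ioi)]
      refine Eventually.of_forall fun p hp => ?_
      obtain ⟨t, u⟩ := p
      have ht : t ∈ Ioc (0 : ℝ) 1 := hp.1
      simp only [Function.uncurry, Real.norm_eq_abs, abs_mul, one_mul]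
      rw [abs_of_pos (Real.exp_pos _)]
      have h1 : |1 - t| ≤ 1 := abs_le.2 ⟨by linarith [ht.2], by linarith [ht.1]⟩
      have h2 : |1 - t| * |Real.cos (t * (T - u))| ≤ 1 :=
        mul_le_one₀ h1 (abs_nonneg _) (Real.abs_cos_le_one _)
      calc |F u| * Real.exp (-(σ * u)) * (|1 - t| * |Real.cos (t * (T - u))|)
          ≤ B * Real.exp (-(σ * u)) * 1 := by gcongr; exact hB u
        _ = _ := mul_one _

/-- If the Laplace transform of a bounded function extends continuously to the closed right half
plane, the Fejer means of the function tend to zero. -/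
theorem conv_tendsto (F : ℝ → ℝ) (hm : Measurable F) (B : ℝ) (hB : ∀ u, |F u| ≤ B)
    (g : ℂ → ℂ) (hg : ContinuousOn g {z | 0 ≤ z.re})
    (hgF : ∀ z : ℂ, 0 < z.re → g z = ∫ u in Ioi (0 : ℝ), (F u : ℂ) * Complex.exp (-(z * u))) :
    Tendsto (fun T : ℝ => ∫ u in Ioi (0 : ℝ), F u * fej (T - u)) atTop (𝓝 0) := by
  have hB0 : 0 ≤ B := (abs_nonneg _).trans (hB 0)
  have hG : Continuous fun p : ℝ × ℝ => g ((max p.1 0 : ℝ) + p.2 * Complex.I) := by
    refine hg.comp_continuous (by fun_prop) fun p => ?_
    simp
  have main : ∀ T : ℝ, ∫ u in Ioi (0 : ℝ), F u * fej (T - u)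
      = (∫ t in (0 : ℝ)..1, Complex.exp (t * T * Complex.I) * ((1 - t) * g (t * Complex.I))).re := by
    intro T
    set L : ℝ → ℝ := fun σ => ∫ u in Ioi (0 : ℝ), F u * Real.exp (-(max σ 0 * u)) * fej (T - u)
      with hL
    set R : ℝ → ℝ := fun σ => ∫ t in (0 : ℝ)..1, (Complex.exp (t * T * Complex.I) * ((1 - t) *
      g ((max σ 0 : ℝ) + t * Complex.I))).re with hR
    have hLc : Continuous L := by
      refine continuous_of_dominated (bound := fun u => B * fej (T - u)) ?_ ?_ ?_ ?_
      · intro σ
        refine Measurable.aestronglyMeasurable ?_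
        have := continuous_fej.measurable
        fun_prop
      · intro σ
        rw [ae_restrict_iff' measurableSet_Ioi]
        refine Eventually.of_forall fun u hu => ?_
        have hu' : 0 < u := hu
        rw [Real.norm_eq_abs, abs_mul, abs_mul, abs_of_nonneg (fej_nonneg _),
          abs_of_pos (Real.exp_pos _)]
        have : Real.exp (-(max σ 0 * u)) ≤ 1 := by
          rw [Real.exp_le_one_iff]
          have : 0 ≤ max σ 0 * u := mul_nonneg (le_max_right _ _) hu'.le
          linarith
        have h3 := fej_nonneg (T - u)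
        calc |F u| * Real.exp (-(max σ 0 * u)) * fej (T - u) ≤ B * 1 * fej (T - u) := by
              gcongr; exact hB u
          _ = _ := by ring
      · exact ((integrable_fej.comp_sub_left T).const_mul B).integrableOn
      · exact Eventually.of_forall fun u => by fun_prop
    have hRc : Continuous R := by
      refine intervalIntegral.continuous_parametric_intervalIntegral_of_continuous'
        (f := fun (σ : ℝ) (t : ℝ) => (Complex.exp (t * T * Complex.I) * ((1 - t) *
      g ((max σ 0 : ℝ) + t * Complex.I))).re) ?_ _ _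
      refine Complex.continuous_re.comp ?_
      exact Continuous.mul (by fun_prop) (Continuous.mul (by fun_prop) hG)
    have hEq : EqOn L R (Ioi 0) := by
      intro σ hσ
      have hσ' : 0 < σ := hσ
      simp only [hL, hR, max_eq_left hσ'.le]
      rw [conv_eq F hm B hB hσ' T]
      refine intervalIntegral.integral_congr fun t _ => ?_
      rw [hgF _ (by simpa using hσ')]
    have h0 : L 0 = R 0 := by
      have := hEq.closure hLc hRc
      exact this (by simp)
    simp only [hL, hR, max_self, zero_mul, neg_zero, Real.exp_zero, mul_one, Complex.ofReal_zero,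
      zero_add] at h0
    rw [h0]
    have hc : Continuous fun t : ℝ => Complex.exp (t * T * Complex.I) *
        ((1 - t) * g (t * Complex.I)) := by
      refine Continuous.mul (by fun_prop) (Continuous.mul (by fun_prop) ?_)
      refine hg.comp_continuous (by fun_prop) fun p => ?_
      simp
    exact (Complex.reCLM.intervalIntegral_comp_comm (hc.intervalIntegrable 0 1))
  simp only [main]
  have := (Complex.continuous_re.tendsto 0).comp (rl fun t => (1 - t) * g (t * Complex.I))
  simpa [Function.comp_def] using this

end Crest.Agent.Lib.PNT
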