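import Crest.Agent.Lib.PNT.Tauber

/-! The prime number theorem, also in arithmetic progressions. -/

set_option autoImplicit false

open Set Filter Topology
open ArithmeticFunction ArithmeticFunction.vonMangoldt

namespace Crest.Agent.Lib.PNT

theorem psi_eq_Icc_one (x : ℝ) : Chebyshev.psi x = ∑ k ∈ Finset.Icc 1 ⌊x⌋₊, vonMangoldt k := by
  unfold Chebyshev.psi
  rfl

/-- Prime number theorem in arithmetic progressions, von Mangoldt form. -/
theorem psiAP_tendsto {q : ℕ} [NeZero q] {a : ZMod q} (ha : IsUnit a) :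
    Tendsto (fun x : ℝ => (∑ k ∈ Finset.Icc 1 ⌊x⌋₊, residueClass a k) / x) atTop
      (𝓝 (q.totient : ℝ)⁻¹) := by
  refine wienerIkehara (residueClass a) (residueClass_nonneg a) (C := Real.log 4 + 4)
    (fun n => ?_) _ (LFunctionResidueClassAux a) (continuousOn_LFunctionResidueClassAux a)
    fun s hs => ?_
  · have h1 := Chebyshev.psi_le_const_mul_self (x := n) (Nat.cast_nonneg n)
    rw [psi_eq_Icc_one, Nat.floor_natCast] at h1
    exact (Finset.sum_le_sum fun k _ => residueClass_le a k).trans h1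
  · rw [eqOn_LFunctionResidueClassAux ha hs]
    push_cast
    rfl

/-- Prime number theorem for `ψ`. -/
theorem psi_tendsto : Tendsto (fun x : ℝ => Chebyshev.psi x / x) atTop (𝓝 1) := by
  have h := psiAP_tendsto (q := 1) (a := 1) isUnit_one
  simp only [Nat.totient_one, Nat.cast_one, inv_one] at h
  refine h.congr fun x => ?_
  rw [psi_eq_Icc_one]
  congr 1
  refine Finset.sum_congr rfl fun k _ => ?_
  rw [residueClass, Set.indicator_of_mem]
  exact (Subsingleton.elim _ _ : (k : ZMod 1) = 1)

theorem psi_sub_theta_tendsto :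
    Tendsto (fun x : ℝ => (Chebyshev.psi x - Chebyshev.theta x) / x) atTop (𝓝 0) := by
  obtain ⟨C, hC⟩ := Chebyshev.psi_sub_theta_le_mul_sqrt
  have h1 : Tendsto (fun x : ℝ => C * (Real.sqrt x)⁻¹) atTop (𝓝 0) := by
    simpa using (Real.tendsto_sqrt_atTop.inv_tendsto_atTop).const_mul C
  refine squeeze_zero' ?_ ?_ h1
  · filter_upwards [eventually_gt_atTop 0] with x hx
    exact div_nonneg (by linarith [Chebyshev.theta_le_psi x]) hx.le
  · filter_upwards [eventually_gt_atTop 0] with x hx
    rw [div_le_iff₀ hx]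
    refine (hC x).trans (le_of_eq ?_)
    have hs : 0 < Real.sqrt x := Real.sqrt_pos.2 hx
    field_simp
    rw [Real.sq_sqrt hx.le]

/-- **Prime number theorem** for `θ`. -/
theorem theta_tendsto : Filter.Tendsto (fun x : ℝ => Chebyshev.theta x / x) Filter.atTop
    (nhds 1) := by
  have h := psi_tendsto.sub psi_sub_theta_tendsto
  simp only [sub_zero] at h
  refine h.congr fun x => ?_
  ring

/-- Prime number theorem in arithmetic progressions, `θ` form. -/
theorem thetaAP_tendsto {q : ℕ} [NeZero q] {a : ZMod q} (ha : IsUnit a) :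
    Tendsto (fun x : ℝ => (∑ p ∈ (Finset.Icc 1 ⌊x⌋₊).filter
      (fun p : ℕ => p.Prime ∧ (p : ZMod q) = a), Real.log p) / x) atTop
      (𝓝 (q.totient : ℝ)⁻¹) := by
  have h1 := psiAP_tendsto ha
  have key : ∀ x : ℝ, 0 ≤ (∑ k ∈ Finset.Icc 1 ⌊x⌋₊, residueClass a k) -
      (∑ p ∈ (Finset.Icc 1 ⌊x⌋₊).filter (fun p : ℕ => p.Prime ∧ (p : ZMod q) = a), Real.log p) ∧
      (∑ k ∈ Finset.Icc 1 ⌊x⌋₊, residueClass a k) -
      (∑ p ∈ (Finset.Icc 1 ⌊x⌋₊).filter (fun p : ℕ => p.Prime ∧ (p : ZMod q) = a), Real.log p)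
        ≤ Chebyshev.psi x - Chebyshev.theta x := by
    intro x
    have e2 : Chebyshev.theta x = ∑ k ∈ Finset.Icc 1 ⌊x⌋₊, if k.Prime then Real.log k else 0 := by
      unfold Chebyshev.theta
      rw [Finset.sum_filter]
      rfl
    rw [psi_eq_Icc_one, e2, Finset.sum_filter, ← Finset.sum_sub_distrib, ← Finset.sum_sub_distrib]
    refine ⟨Finset.sum_nonneg fun k _ => ?_, Finset.sum_le_sum fun k _ => ?_⟩
    · by_cases hk : k.Prime ∧ (k : ZMod q) = a
      · rw [if_pos hk, residueClass, Set.indicator_of_mem (by exact hk.2),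
          vonMangoldt_apply_prime hk.1, sub_self]
      · rw [if_neg hk, sub_zero]; exact residueClass_nonneg a k
    · by_cases hp : k.Prime
      · by_cases hk : (k : ZMod q) = a
        · rw [if_pos ⟨hp, hk⟩, if_pos hp, residueClass, Set.indicator_of_mem (by exact hk)]
        · rw [if_neg (fun h => hk h.2), if_pos hp, residueClass,
            Set.indicator_of_notMem (by exact hk), vonMangoldt_apply_prime hp]
          simp
      · rw [if_neg (fun h => hp h.1), if_neg hp, sub_zero, sub_zero]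
        exact residueClass_le a k
  have h2 : Tendsto (fun x : ℝ => ((∑ k ∈ Finset.Icc 1 ⌊x⌋₊, residueClass a k) -
      (∑ p ∈ (Finset.Icc 1 ⌊x⌋₊).filter (fun p : ℕ => p.Prime ∧ (p : ZMod q) = a), Real.log p))
        / x) atTop (𝓝 0) := by
    refine squeeze_zero' ?_ ?_ psi_sub_theta_tendsto
    · filter_upwards [eventually_gt_atTop 0] with x hx
      exact div_nonneg (key x).1 hx.le
    · filter_upwards [eventually_gt_atTop 0] with x hx
      exact div_le_div_of_nonneg_right (key x).2 hx.le
  have h := h1.sub h2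
  simp only [sub_zero] at h
  refine h.congr fun x => ?_
  ring

end Crest.Agent.Lib.PNT
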